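import Vale.Agent.P281.H76.Main

open scoped Manifold ContDiff Topology
open Vale.Agent.P281.J Vale.Agent.P281.H76

namespace Vale.Agent.P281.Old.CrepantCovers

universe u

/-- Campana's inequality, in the strong form with `B(f, Δ)`, for a `ℙ(W)`-bundle `f : X → Y` and
for every `f ∘ q : X' → Y`, where `q : X' → X` is a generically finite map with
`K_{X'} + Δ' = q^* (K_X + Δ) + R`, `R` effective and disjoint from the fibre `F`. -/
theorem result {E E' E₀ W : Type} [NormedAddCommGroup E] [NormedSpace ℂ E] [FiniteDimensional ℂ E]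
    [NormedAddCommGroup E'] [NormedSpace ℂ E'] [FiniteDimensional ℂ E']
    [NormedAddCommGroup E₀] [NormedSpace ℂ E₀] [FiniteDimensional ℂ E₀]
    [NormedAddCommGroup W] [NormedSpace ℂ W] [FiniteDimensional ℂ W]
    {X Y : Type u} [TopologicalSpace X] [ChartedSpace E X] [IsManifold 𝓘(ℂ, E) ω X]
    [CompactSpace X] [T2Space X] [ConnectedSpace X]
    [TopologicalSpace Y] [ChartedSpace E' Y] [IsManifold 𝓘(ℂ, E') ω Y] [T2Space Y]
    (hW : 1 < Module.finrank ℂ W)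
    (hE : Module.finrank ℂ E + 1 = Module.finrank ℂ E' + Module.finrank ℂ W)
    (hd : Module.finrank ℂ E₀ + 1 = Module.finrank ℂ W)
    (f : X → Y) (hf : ContMDiff 𝓘(ℂ, E) 𝓘(ℂ, E') ω f)
    {ι : Type u} (U : ι → Set Y) (π : ι → Y → W → X) (hB : IsBundle E E' f U π)
    (Δ : Set X → ℝ) (hsnc : IsSNC E Δ)
    (hΔ : ∀ D, Δ D ≠ 0 → ∃ d : ℕ, ∀ a, ∃ p : Y → W → ℂ,
      (∀ y ∈ U a, ContDiff ℂ ω (p y) ∧ ∀ (c : ℂ) w, p y (c • w) = c ^ d * p y w) ∧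
      ∀ x v, f x ∈ U a → IsLift E f (π a) v x → IsLocalEq E D (fun z => p (f z) (v z)) x)
    (htr : ∃ y, IsTransversal E E' f Δ y) (y : Y) :
    (∀ (F : Type u) [TopologicalSpace F] [ChartedSpace E₀ F] [IsManifold 𝓘(ℂ, E₀) ω F]
      (i : F → X), ContMDiff 𝓘(ℂ, E₀) 𝓘(ℂ, E) ω i → Topology.IsEmbedding i →
      Set.range i = f ⁻¹' {y} → (∀ p, Function.Injective (mfderiv 𝓘(ℂ, E₀) 𝓘(ℂ, E) i p)) →
      kod E₀ (fun (D : Set X) p g => ∃ e, IsLocalEq E D e (i p) ∧ ∀ᶠ q in 𝓝 p, g q = e (i q)) Δ +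
        kod E' (fun (G : Set Y) z g => IsLocalEq E' G g z) (orbBase E E' f Δ) ≤
        kod E (fun (D : Set X) z g => IsLocalEq E D g z) Δ) ∧
    ∀ (X' F : Type u) [TopologicalSpace X'] [ChartedSpace E X'] [IsManifold 𝓘(ℂ, E) ω X']
      [CompactSpace X'] [ConnectedSpace X']
      [TopologicalSpace F] [ChartedSpace E₀ F] [IsManifold 𝓘(ℂ, E₀) ω F] [ConnectedSpace F]
      (q : X' → X) (Δ' : Set X' → ℝ) (i : F → X'),
      ContMDiff 𝓘(ℂ, E) 𝓘(ℂ, E) ω q → Function.Surjective q → IsSNC E Δ' →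
      IsLogMap E q Δ' Δ ((f ∘ q) ⁻¹' {y}) →
      ContMDiff 𝓘(ℂ, E₀) 𝓘(ℂ, E) ω i → Topology.IsEmbedding i →
      Set.range i = (f ∘ q) ⁻¹' {y} → (∀ p, Function.Injective (mfderiv 𝓘(ℂ, E₀) 𝓘(ℂ, E) i p)) →
      (∀ p, Function.Surjective (mfderiv 𝓘(ℂ, E) 𝓘(ℂ, E') (f ∘ q) (i p))) →
      (∃ p, Function.Bijective (mfderiv 𝓘(ℂ, E) 𝓘(ℂ, E) q (i p))) →
      kod E₀ (fun (D : Set X') p g => ∃ e, IsLocalEq E D e (i p) ∧ ∀ᶠ q in 𝓝 p, g q = e (i q)) Δ' +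
        kod E' (fun (G : Set Y) z g => IsLocalEq E' G g z) (orbBase E E' f Δ) ≤
        kod E (fun (D : Set X') z g => IsLocalEq E D g z) Δ' := by
  refine ⟨?_, ?_⟩
  · intro F _ _ _ i hi hi₁ hi₂ hi₃
    exact Vale.Agent.P281.JB.main hW hE f hf U π hB Δ hsnc hΔ htr y i hi hi₁ hi₂ hi₃ hd
  · intro X' F _ _ _ _ _ _ _ _ _ q Δ' i hq hqs hsnc' hlog hi hi₁ hi₂ hi₃ hsub hgen
    exact Vale.Agent.P281.H76.main hW hE f hf U π hB Δ hsnc hΔ htr q hq hqs Δ' hsnc' y hlog i hi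
      hi₁ hi₂ hi₃ hd hsub hgen

end Vale.Agent.P281.Old.CrepantCovers
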