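import Vale.Agent.P281.ELL.MainL

open scoped Manifold ContDiff Topology
open Vale.Agent.P281.J

namespace Vale.Agent.Old281.EllipticPairs

universe u

/-- Campana's inequality `κ(X, K_X + Δ) ≥ κ(F, K_F + Δ_F) + κ(Y, K_Y + B(f, Δ))` for elliptic
fibrations with arbitrary variation of the fibres and arbitrary boundary: `f : X ⇢ Y` is a
meromorphic map, holomorphic on the open subset `Z` (embedded by `j`) of the compact manifold `X`,
whose complement has codimension `≥ 2` (`Z = X` is allowed); over the complement of finitely many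
prime divisors `G ∈ 𝒢` of `Y`, `f` is a smooth family of elliptic curves `ℂ / (ℤ + ℤ τ)`, `τ` a
holomorphic function of the base point; every component of `f⁻¹(⋃ G)` dominates a `G`, and `𝒢`
contains the components of `B(f, Δ)`; `F` is (by `i`) the fibre of `f` over a point `y ∉ ⋃ G`, and
the components of `Δ_F` lie on components of `Δ` which are étale multisections over `Y ∖ ⋃ G`.
The multiple and degenerate fibres over the `G ∈ 𝒢` are arbitrary. -/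
theorem result {E E' E₀ : Type} [NormedAddCommGroup E] [NormedSpace ℂ E] [FiniteDimensional ℂ E]
    [NormedAddCommGroup E'] [NormedSpace ℂ E'] [FiniteDimensional ℂ E']
    [NormedAddCommGroup E₀] [NormedSpace ℂ E₀] [FiniteDimensional ℂ E₀]
    {X Z Y F : Type u} [TopologicalSpace X] [ChartedSpace E X] [IsManifold 𝓘(ℂ, E) ω X]
    [CompactSpace X] [T2Space X] [ConnectedSpace X]
    [TopologicalSpace Z] [ChartedSpace E Z] [IsManifold 𝓘(ℂ, E) ω Z]
    [TopologicalSpace Y] [ChartedSpace E' Y] [IsManifold 𝓘(ℂ, E') ω Y] [T2Space Y]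
    [TopologicalSpace F] [ChartedSpace E₀ F] [IsManifold 𝓘(ℂ, E₀) ω F]
    [CompactSpace F] [ConnectedSpace F]
    (hE : Module.finrank ℂ E = Module.finrank ℂ E' + 1) (hE₀ : Module.finrank ℂ E₀ = 1)
    (j : Z → X) (hj : IsBigOpen E j) (f : Z → Y) (hf : ContMDiff 𝓘(ℂ, E) 𝓘(ℂ, E') ω f)
    (𝒢 : Set (Set Y)) (h𝒢 : IsDivisorial E E' f 𝒢)
    {ι : Type u} (U : ι → Set Y) (τ : ι → Y → ℂ) (π : ι → Y → ℂ → Z)
    (hB : IsEllipticOver E E' f (⋃₀ 𝒢) U τ π)
    (Δ : Set X → ℝ) (hsnc : IsSNC E Δ) (Δ' : Set Z → ℝ) (hsnc' : IsSNC E Δ')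
    (hΔ : IsRestriction j Δ Δ') (hBS : ∀ G, orbBase' E E' f Δ' G ≠ 0 → G ∈ 𝒢)
    {y : Y} (hy : y ∉ ⋃₀ 𝒢) (i : F → Z) (hi : ContMDiff 𝓘(ℂ, E₀) 𝓘(ℂ, E) ω i)
    (hi₁ : Topology.IsEmbedding i) (hi₂ : Set.range i = f ⁻¹' {y})
    (hi₃ : ∀ p, Function.Injective (mfderiv 𝓘(ℂ, E₀) 𝓘(ℂ, E) i p))
    (ΔF : Set F → ℝ) (hF : IsSNC E₀ ΔF) (hΔF : IsCarriedBy E' f U π Δ' i ΔF) :
    kod E₀ (fun (C : Set F) p g => IsLocalEq E₀ C g p) ΔF +
      kod E' (fun (G : Set Y) z g => IsLocalEq E' G g z) (orbBase' E E' f Δ') ≤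
      kod E (fun (D : Set X) z g => IsLocalEq E D g z) Δ :=
  Vale.Agent.P281.ELL.main_log hE hE₀ j hj f hf 𝒢 h𝒢 U τ π hB Δ hsnc Δ' hsnc' hΔ hBS hy i hi
    hi₁ hi₂ hi₃ ΔF hF hΔF

end Vale.Agent.Old281.EllipticPairs
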