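import Vale.Agent.P281.ISO.Main

open scoped Manifold ContDiff Topology
open Vale.Agent.P281.J

namespace Vale.Agent.P281.Old.IsotrivialFibrations

universe u

/-- Campana's inequality `κ(X, K_X + Δ) ≥ κ(F, K_F) + κ(Y, K_Y + B(f, Δ))` for isotrivial
fibrations `f : X → Y`: over the complement of `S`, `f` is a holomorphic fibre bundle with fibre `F`
and finite monodromy on the pluricanonical sections of `F`; over `S` the degenerate and multiple
fibres are arbitrary. -/
theorem result {E E' E₀ : Type} [NormedAddCommGroup E] [NormedSpace ℂ E] [FiniteDimensional ℂ E]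
    [NormedAddCommGroup E'] [NormedSpace ℂ E'] [FiniteDimensional ℂ E']
    [NormedAddCommGroup E₀] [NormedSpace ℂ E₀] [FiniteDimensional ℂ E₀]
    {X Y F : Type u} [TopologicalSpace X] [ChartedSpace E X] [IsManifold 𝓘(ℂ, E) ω X]
    [CompactSpace X] [T2Space X] [ConnectedSpace X]
    [TopologicalSpace Y] [ChartedSpace E' Y] [IsManifold 𝓘(ℂ, E') ω Y] [T2Space Y]
    [TopologicalSpace F] [ChartedSpace E₀ F] [IsManifold 𝓘(ℂ, E₀) ω F]
    (hE : Module.finrank ℂ E = Module.finrank ℂ E' + Module.finrank ℂ E₀)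
    (f : X → Y) (hf : ContMDiff 𝓘(ℂ, E) 𝓘(ℂ, E') ω f) (hfib : ∀ y, IsConnected (f ⁻¹' {y}))
    (S : Set Y) {ι : Type u} (U : ι → Set Y) (q : ι → X → F)
    (hB : IsFibreBundle E E' E₀ f S U q) (hM : HasFiniteMonodromy E₀ f U q 0)
    (hthin : IsThin E E' f S) (Δ : Set X → ℝ) (hsnc : IsSNC E Δ)
    (hBS : ∀ G, orbBase E E' f Δ G ≠ 0 → G ⊆ S) :
    kod E₀ (fun (C : Set F) p g => IsLocalEq E₀ C g p) 0 +
      kod E' (fun (G : Set Y) z g => IsLocalEq E' G g z) (orbBase E E' f Δ) ≤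
      kod E (fun (D : Set X) z g => IsLocalEq E D g z) Δ :=
  Vale.Agent.P281.ISO.main_hol hE f hf hfib S U q hB hM hthin Δ hsnc hBS

end Vale.Agent.P281.Old.IsotrivialFibrations
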