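import Vale.Agent.P281.MF.Main

open scoped Manifold ContDiff Topology
open Vale.Agent.P281.J

namespace Vale.Agent.Old281.MultipleFibres

universe u

/-- Campana's inequality for fibrations `f : X → Y` with arbitrary multiple fibres, whose vertical
tangent directions form a subbundle of the tangent bundle of `X` with torsion determinant, and
vertical boundaries `Δ`; `F` is any fibre over which `f` is submersive. -/
def FibrationsWithMultipleFibres : Prop :=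
  ∀ {E E' E₀ V : Type} [NormedAddCommGroup E] [NormedSpace ℂ E] [FiniteDimensional ℂ E]
    [NormedAddCommGroup E'] [NormedSpace ℂ E'] [FiniteDimensional ℂ E']
    [NormedAddCommGroup E₀] [NormedSpace ℂ E₀] [FiniteDimensional ℂ E₀]
    [NormedAddCommGroup V] [NormedSpace ℂ V] [FiniteDimensional ℂ V]
    {X Y F : Type u} [TopologicalSpace X] [ChartedSpace E X] [IsManifold 𝓘(ℂ, E) ω X]
    [CompactSpace X] [T2Space X] [ConnectedSpace X]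
    [TopologicalSpace Y] [ChartedSpace E' Y] [IsManifold 𝓘(ℂ, E') ω Y] [T2Space Y]
    [TopologicalSpace F] [ChartedSpace E₀ F] [IsManifold 𝓘(ℂ, E₀) ω F]
    (_ : Module.finrank ℂ E = Module.finrank ℂ E' + Module.finrank ℂ V)
    (_ : Module.finrank ℂ E₀ = Module.finrank ℂ V)
    (f : X → Y) (_ : ContMDiff 𝓘(ℂ, E) 𝓘(ℂ, E') ω f) (_ : ∀ y, IsConnected (f ⁻¹' {y}))
    (N : ℕ) (_ : 0 < N) {ι : Type u} (U : ι → Set X) (τ : ι → X → V →L[ℂ] E)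
    (_ : IsVerticalFrame E E' f N U τ)
    (_ : ∀ G : Set Y, IsPrime E' G → ∃ κ : ℕ, IsMultiple E E' f G κ)
    (Δ : Set X → ℝ) (_ : IsSNC E Δ) (_ : ∀ D, Δ D ≠ 0 → ∃ G : Set Y, D = f ⁻¹' G)
    (y : Y) (_ : ∀ x, f x = y → Function.Surjective (mfderiv 𝓘(ℂ, E) 𝓘(ℂ, E') f x))
    (i : F → X) (_ : ContMDiff 𝓘(ℂ, E₀) 𝓘(ℂ, E) ω i)
    (_ : Topology.IsEmbedding i) (_ : Set.range i = f ⁻¹' {y})
    (_ : ∀ p, Function.Injective (mfderiv 𝓘(ℂ, E₀) 𝓘(ℂ, E) i p)),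
    kod E₀ (fun (D : Set X) p g => ∃ e, IsLocalEq E D e (i p) ∧ ∀ᶠ q in 𝓝 p, g q = e (i q)) Δ +
      kod E' (fun (G : Set Y) z g => IsLocalEq E' G g z) (orbBase E E' f Δ) ≤
      kod E (fun (D : Set X) z g => IsLocalEq E D g z) Δ

/-- Campana's inequality for `ℙ(W)`-bundles `f : X → Y`; `F` is any fibre. -/
def ProjectiveBundles : Prop :=
  ∀ {E E' E₀ W : Type} [NormedAddCommGroup E] [NormedSpace ℂ E] [FiniteDimensional ℂ E]
    [NormedAddCommGroup E'] [NormedSpace ℂ E'] [FiniteDimensional ℂ E']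
    [NormedAddCommGroup E₀] [NormedSpace ℂ E₀] [FiniteDimensional ℂ E₀]
    [NormedAddCommGroup W] [NormedSpace ℂ W] [FiniteDimensional ℂ W]
    {X Y F : Type u} [TopologicalSpace X] [ChartedSpace E X] [IsManifold 𝓘(ℂ, E) ω X]
    [CompactSpace X] [T2Space X] [ConnectedSpace X]
    [TopologicalSpace Y] [ChartedSpace E' Y] [IsManifold 𝓘(ℂ, E') ω Y] [T2Space Y]
    [TopologicalSpace F] [ChartedSpace E₀ F] [IsManifold 𝓘(ℂ, E₀) ω F]
    (_ : 1 < Module.finrank ℂ W)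
    (_ : Module.finrank ℂ E + 1 = Module.finrank ℂ E' + Module.finrank ℂ W)
    (f : X → Y) (_ : ContMDiff 𝓘(ℂ, E) 𝓘(ℂ, E') ω f)
    {ι : Type u} (U : ι → Set Y) (π : ι → Y → W → X) (_ : IsBundle E E' f U π)
    (Δ : Set X → ℝ) (_ : IsSNC E Δ)
    (_ : ∀ D, Δ D ≠ 0 → ∃ d : ℕ, ∀ a, ∃ p : Y → W → ℂ,
      (∀ y ∈ U a, ContDiff ℂ ω (p y) ∧ ∀ (c : ℂ) w, p y (c • w) = c ^ d * p y w) ∧
      ∀ x v, f x ∈ U a → IsLift E f (π a) v x → IsLocalEq E D (fun z => p (f z) (v z)) x)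
    (_ : ∃ y, IsTransversal E E' f Δ y)
    (y : Y) (i : F → X) (_ : ContMDiff 𝓘(ℂ, E₀) 𝓘(ℂ, E) ω i)
    (_ : Topology.IsEmbedding i) (_ : Set.range i = f ⁻¹' {y})
    (_ : ∀ p, Function.Injective (mfderiv 𝓘(ℂ, E₀) 𝓘(ℂ, E) i p))
    (_ : Module.finrank ℂ E₀ + 1 = Module.finrank ℂ W),
    kod E₀ (fun (D : Set X) p g => ∃ e, IsLocalEq E D e (i p) ∧ ∀ᶠ q in 𝓝 p, g q = e (i q)) Δ +
      kod E' (fun (G : Set Y) z g => IsLocalEq E' G g z) (orbBase E E' f Δ) ≤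
      kod E (fun (D : Set X) z g => IsLocalEq E D g z) Δ

/-- Campana's inequality `κ(X, K_X + Δ) ≥ κ(F, K_F + Δ|_F) + κ(Y, K_Y + B(f, Δ))` for fibrations
with multiple fibres and for projective bundles. -/
theorem result : FibrationsWithMultipleFibres.{u} ∧ ProjectiveBundles.{u} := by
  refine ⟨?_, ?_⟩
  · intro E E' E₀ V _ _ _ _ _ _ _ _ _ _ _ _ X Y F _ _ _ _ _ _ _ _ _ _ _ _ _ hE hE₀ f hf hfib
      N hN ι U τ hτ hm Δ hs hΔ y hy i hi hi₁ hi₂ hi₃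
    exact Vale.Agent.P281.MF.main hE hE₀ f hf hfib N hN U τ hτ hm Δ hs hΔ y hy i hi hi₁ hi₂ hi₃
  · intro E E' E₀ W _ _ _ _ _ _ _ _ _ _ _ _ X Y F _ _ _ _ _ _ _ _ _ _ _ _ _ hW hE f hf
      ι U π hB Δ hs hΔ htr y i hi hi₁ hi₂ hi₃ hd
    exact Vale.Agent.P281.JB.main hW hE f hf U π hB Δ hs hΔ htr y i hi hi₁ hi₂ hi₃ hd

end Vale.Agent.Old281.MultipleFibres
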